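import Crest.Agent.R345.M.DataV
import Crest.Agent.R345.M.DataW
import Crest.Agent.R345.M.DataN

set_option autoImplicit false
set_option maxRecDepth 1000000

namespace Crest.Agent.R345.M

open Crest.Agent.R345

theorem cN4 : checkNH bb mm 6 10 16 4 15 15 NN VR' VI' WR' WI' = true := by decide +kernel


end Crest.Agent.R345.M
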