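import Crest.Agent.R345.M.DataN

set_option autoImplicit false
set_option maxRecDepth 1000000

namespace Crest.Agent.R345.M

open Crest.Agent.R345

theorem sN : shapeA 20 10 10 1 1877472623035432172556050203325411980286043017383605822401928553635016487448886188633887530569365057996573507274202024598358017364896576139556137757059872543349123900191203713244605926198393563531719386860999178202703647602656061057114608793649885185898771696750263441351441682152852278760464896352000791055040074368626431296913585022660401468048132187957979909767638752884553108830445404973170017659634334522627652 NN = true := by decide +kernel


end Crest.Agent.R345.M
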