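import Crest.Agent.R345.M.DataW
import Crest.Agent.R345.M.DataN

set_option autoImplicit false
set_option maxRecDepth 1000000

namespace Crest.Agent.R345.M

open Crest.Agent.R345

theorem sHR2 : shapeA 1 15 15 1 4175487587018525594593291524546008399122887428204265265937128806524885651827981031435352318023702612941110996663504606816130776721308491858259696840026337765196235802769309871363108539469959844212713056503058170945001251999076357211358595222680975799211353713295891801636453978599991891077159978984923306762982516845689040205689545249991925162350307863980935729969976364562136015560450178905143028280367115142110005000 HR2 = true := by decide +kernel

theorem sHI2 : shapeA 1 15 15 1 4175487587018525594593291524546008399122887428204265265937128806524885651827981031435352318023702612941110996663504606816130776721308491858259696840026337765196235802769309871363108539469959844212713056503058170945001251999076357211358595222680975799211353713295891801636453978599991891077159978984923306762982516845689040205689545249991925162350307863980935729969976364562136015560450178905143028280367115142110005000 HI2 = true := by decide +kernel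

theorem sWR : shapeA 10 6 15 1 350034538211077837963777888513337083646167679670925823082311887989041750311490099084152072200 WR = true := by decide +kernel

theorem sWI : shapeA 10 6 15 1 350034538211077837963777888513337083646167679670925823082311887989041750311490099084152072200 WI = true := by decide +kernel

theorem sWR' : shapeA 15 10 6 1 350034538211077837963777888513337083646167679670925823082311887989041750311490099084152072200 WR' = true := by decide +kernel

theorem sWI' : shapeA 15 10 6 1 350034538211077837963777888513337083646167679670925823082311887989041750311490099084152072200 WI' = true := by decide +kernel

theorem lWR : checkLay2 10 6 15 WR WR' = true := by decide +kernel

theorem lWI : checkLay2 10 6 15 WI WI' = true := by decide +kernel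

theorem cT2 : checkTH bb mm 10 6 15 HR2 HI2 WR WI = true := by decide +kernel


end Crest.Agent.R345.M
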