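import Crest.Agent.R345.M.T1
import Crest.Agent.R345.M.T2
import Crest.Agent.R345.M.SN
import Crest.Agent.R345.M.Pos1
import Crest.Agent.R345.M.Pos2
import Crest.Agent.R345.NFFinal
import Crest.Agent.R345.M.N0
import Crest.Agent.R345.M.N1
import Crest.Agent.R345.M.N2
import Crest.Agent.R345.M.N3
import Crest.Agent.R345.M.N4
import Crest.Agent.R345.CertX.Final

/-!
# The pair: final assembly (row 345)
-/

set_option autoImplicit false
set_option maxRecDepth 1000000

namespace Crest.Agent.R345.M

open Crest.Agent.R345 Polynomial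
open scoped ComplexOrder MatrixOrder

theorem hX : aeval (0 : ℝ) (X : ℤ[X]) = 0 := aeval_X _

theorem hdeg : 0 < (X : ℤ[X]).natDegree := by rw [natDegree_X]; exact Nat.one_pos

theorem hmb : mm = bb := rfl

theorem hm : (mm : ℤ) = |(X : ℤ[X]).eval (bb : ℤ)| := by
  rw [eval_X, hmb, Nat.abs_cast]

theorem hm0 : 0 < mm := Nat.lt_of_lt_of_le (Nat.zero_lt_one) (by decide +kernel)

theorem hb1 : (2 * (2 * (15 * ((2 * (15 * (101043480524977309386025107394554585249551281030973429298078454500917984068952450858487356720860270315758047033747606805528206237195871114018985585941256930004062433440942165298595374282857478558139094491931912593708947696694293232016613532322224437686845071835166473159274075124480646089605182647973045078535621381239706577049600 * 5138650715109870618142250066390420786377156521923058165400797792661604982892979865600))) * 5138650715109870618142250066390420786377156521923058165400797792661604982892979865600)))) * l1 (X : ℤ[X]) ^ (3 * 1 + 1) + l1 (X : ℤ[X]) < bb :=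
  bound_of_l1 l1_X_le (by decide +kernel)

theorem hb2 : (2 * (2 * (15 * ((2 * (15 * (4175487587018525594593291524546008399122887428204265265937128806524885651827981031435352318023702612941110996663504606816130776721308491858259696840026337765196235802769309871363108539469959844212713056503058170945001251999076357211358595222680975799211353713295891801636453978599991891077159978984923306762982516845689040205689545249991925162350307863980935729969976364562136015560450178905143028280367115142110005000 * 350034538211077837963777888513337083646167679670925823082311887989041750311490099084152072200))) * 350034538211077837963777888513337083646167679670925823082311887989041750311490099084152072200)))) * l1 (X : ℤ[X]) ^ (3 * 1 + 1) + l1 (X : ℤ[X]) < bb :=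
  bound_of_l1 l1_X_le (by decide +kernel)

theorem hbN : 2 * (10 * (6 * ((10 * (1877472623035432172556050203325411980286043017383605822401928553635016487448886188633887530569365057996573507274202024598358017364896576139556137757059872543349123900191203713244605926198393563531719386860999178202703647602656061057114608793649885185898771696750263441351441682152852278760464896352000791055040074368626431296913585022660401468048132187957979909767638752884553108830445404973170017659634334522627652 * 5138650715109870618142250066390420786377156521923058165400797792661604982892979865600)) * 350034538211077837963777888513337083646167679670925823082311887989041750311490099084152072200))) * l1 (X : ℤ[X]) ^ (3 * 1 + 1) +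
    l1 (X : ℤ[X]) < bb :=
  bound_of_l1 l1_X_le (by decide +kernel)

theorem hN (t : ℕ) (ht : t < 20) (k : ℕ) (hk : k < 15) (l : ℕ) (hl : l < 15) :
    ∑ i ∈ Finset.range 10, ∑ j ∈ Finset.range 10, (evL 0 (entA NN t j i) : ℂ) *
      ∑ x ∈ Finset.range 6, cx 0 VR' VI' k x i * cx 0 WR' WI' l j x = 0 := by
  rcases Nat.lt_or_ge t 4 with h0 | h0
  · obtain ⟨s, rfl⟩ : ∃ s, t = 0 + s := ⟨t - 0, by omega⟩
    exact checkNH_sound (θ := 0) monic_X hdeg hX hm hm0 sN sVR' sVI' sWR' sWI' hbN cN0
      (t₀ := 0) (nt := 4) (by omega) ht hk hl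
  rcases Nat.lt_or_ge t 8 with h1 | h1
  · obtain ⟨s, rfl⟩ : ∃ s, t = 4 + s := ⟨t - 4, by omega⟩
    exact checkNH_sound (θ := 0) monic_X hdeg hX hm hm0 sN sVR' sVI' sWR' sWI' hbN cN1
      (t₀ := 4) (nt := 4) (by omega) ht hk hl
  rcases Nat.lt_or_ge t 12 with h2 | h2
  · obtain ⟨s, rfl⟩ : ∃ s, t = 8 + s := ⟨t - 8, by omega⟩
    exact checkNH_sound (θ := 0) monic_X hdeg hX hm hm0 sN sVR' sVI' sWR' sWI' hbN cN2
      (t₀ := 8) (nt := 4) (by omega) ht hk hl
  rcases Nat.lt_or_ge t 16 with h3 | h3
  · obtain ⟨s, rfl⟩ : ∃ s, t = 12 + s := ⟨t - 12, by omega⟩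
    exact checkNH_sound (θ := 0) monic_X hdeg hX hm hm0 sN sVR' sVI' sWR' sWI' hbN cN3
      (t₀ := 12) (nt := 4) (by omega) ht hk hl
  rcases Nat.lt_or_ge t 20 with h4 | h4
  · obtain ⟨s, rfl⟩ : ∃ s, t = 16 + s := ⟨t - 16, by omega⟩
    exact checkNH_sound (θ := 0) monic_X hdeg hX hm hm0 sN sVR' sVI' sWR' sWI' hbN cN4
      (t₀ := 16) (nt := 4) (by omega) ht hk hl
  · omega

theorem lW (j : ℕ) (hj : j < 10) (x : ℕ) (hx : x < 6) (l : ℕ) (hl : l < 15) :
    cx 0 WR WI j x l = cx 0 WR' WI' l j x := by
  unfold cx
  rw [checkLay2_sound lWR hj hx hl, checkLay2_sound lWI hj hx hl]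

theorem hp241 : Nat.Prime 241 := by norm_num

theorem hmod : checkMod 241 0 20 NN (fun t i j => Cert.ent CertX.NT t i j) = true := by
  decide +kernel

theorem hfree (u : Fin 10 → ℂ) (v : Fin 10 → ℂ)
    (hz : ∀ t : Fin 20, ∑ i : Fin 10, ∑ j : Fin 10, (evL 0 (entA NN t j i) : ℂ) * u i * v j = 0) :
    u = 0 ∨ v = 0 :=
  haveI : Fact (Nat.Prime 241) := ⟨hp241⟩
  hfree_zero (p := 241) (e := fun t i j => Cert.ent CertX.NT t i j) hmod
    (fun k _ _ u v hz => CertX.noZero k u v hz) u v hz

theorem hne : neCheck 0 0 0 6 VR VI WR WI 9 0 7 0 = true := by decide +kernel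

theorem final : Concl541 := by
  refine concl541_of_nf (θ := 0) 10 6 10 15 15 20 (by norm_num) (by norm_num) (by norm_num)
    HR1 HI1 VR VI HR2 HI2 WR WI NN VR' VI' WR' WI' ?_ ?_ lVR lVI lW hN
    (posCheck_sound (by decide) (by norm_num) (by norm_num) (by decide) near1 uc1 pos1)
    (posCheck_sound (by decide) (by norm_num) (by norm_num) (by decide) near2 uc2 pos2)
    hfree ⟨0, by norm_num, 0, by norm_num, 9, by norm_num, 7, by norm_num,
      neCheck_sound (q := 0) (tl := 0) (th := 0) le_rfl (by norm_num) (by norm_num) hne⟩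
  · intro i hi j hj x hx y hy
    exact checkTH_sound (θ := 0) monic_X hdeg hX hm hm0 sHR1 sHI1 sVR sVI hb1 cT1 hi hj hx hy
  · intro i hi j hj x hx y hy
    exact checkTH_sound (θ := 0) monic_X hdeg hX hm hm0 sHR2 sHI2 sWR sWI hb2 cT2 hi hj hx hy

end Crest.Agent.R345.M
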