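import Crest.Agent.R345.M.DataV
import Crest.Agent.R345.M.DataN

set_option autoImplicit false
set_option maxRecDepth 1000000

namespace Crest.Agent.R345.M

open Crest.Agent.R345

theorem sHR1 : shapeA 1 15 15 1 101043480524977309386025107394554585249551281030973429298078454500917984068952450858487356720860270315758047033747606805528206237195871114018985585941256930004062433440942165298595374282857478558139094491931912593708947696694293232016613532322224437686845071835166473159274075124480646089605182647973045078535621381239706577049600 HR1 = true := by decide +kernel

theorem sHI1 : shapeA 1 15 15 1 101043480524977309386025107394554585249551281030973429298078454500917984068952450858487356720860270315758047033747606805528206237195871114018985585941256930004062433440942165298595374282857478558139094491931912593708947696694293232016613532322224437686845071835166473159274075124480646089605182647973045078535621381239706577049600 HI1 = true := by decide +kernel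

theorem sVR : shapeA 10 6 15 1 5138650715109870618142250066390420786377156521923058165400797792661604982892979865600 VR = true := by decide +kernel

theorem sVI : shapeA 10 6 15 1 5138650715109870618142250066390420786377156521923058165400797792661604982892979865600 VI = true := by decide +kernel

theorem sVR' : shapeA 15 6 10 1 5138650715109870618142250066390420786377156521923058165400797792661604982892979865600 VR' = true := by decide +kernel

theorem sVI' : shapeA 15 6 10 1 5138650715109870618142250066390420786377156521923058165400797792661604982892979865600 VI' = true := by decide +kernel

theorem lVR : checkLay 10 6 15 VR VR' = true := by decide +kernel

theorem lVI : checkLay 10 6 15 VI VI' = true := by decide +kernel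

theorem cT1 : checkTH bb mm 10 6 15 HR1 HI1 VR VI = true := by decide +kernel


end Crest.Agent.R345.M
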